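import Vale.Agent.P128.Stream
import Vale.Agent.P128.Continuum

/-!
# P128, piece P: two continua in the crack set meet in a connected set

Two arcs in `K` with the same end points have the same Cauchy integral off `K` (`Kᶜ` is connected).
By the Cauchy-Pompeiu formula every test function then has the same integral along both arcs, so
neither arc leaves the other.
-/

open MeasureTheory Set Metric Filter
open scoped ENNReal NNReal Topology Real

noncomputable section

namespace Vale.Agent.P128.Leaf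

open StreamAux

/-- `∂ψ/∂x + i ∂ψ/∂y`. -/
def db (ψ : ℂ → ℝ) (z : ℂ) : ℂ := fderiv ℝ ψ z 1 + Complex.I * fderiv ℝ ψ z Complex.I

theorem continuous_db {ψ : ℂ → ℝ} (hψ : ContDiff ℝ 1 ψ) : Continuous (db ψ) := by
  have h := hψ.continuous_fderiv one_ne_zero
  exact (Complex.continuous_ofReal.comp (h.clm_apply continuous_const)).add
    (continuous_const.mul (Complex.continuous_ofReal.comp (h.clm_apply continuous_const)))

theorem db_eq_zero {ψ : ℂ → ℝ} {z : ℂ} (hz : z ∉ tsupport ψ) : db ψ z = 0 := by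
  simp [db, fderiv_of_notMem_tsupport ℝ hz]

/-- Cauchy-Pompeiu formula. -/
theorem pompeiu {ψ : ℂ → ℝ} (hψ : ContDiff ℝ 1 ψ) (hψc : HasCompactSupport ψ) (p : ℂ) :
    ∫ w, db ψ w / (p - w) = ((2 * π * ψ p : ℝ) : ℂ) := by
  set e : ℝ → ℂ := fun θ => (Real.cos θ : ℂ) + Real.sin θ * Complex.I with he
  set z : ℝ × ℝ → ℂ := fun q => p + (q.1 : ℂ) * e q.2 with hz
  set Rd : ℝ × ℝ → ℝ := fun q => fderiv ℝ ψ (z q) (e q.2) with hRd
  set Sd : ℝ × ℝ → ℝ := fun q => fderiv ℝ ψ (z q) (Complex.I * e q.2) with hSd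
  have hec : Continuous e := by rw [he]; fun_prop
  have hzc : Continuous z := by rw [hz]; fun_prop
  have hDc := hψ.continuous_fderiv one_ne_zero
  have hRc : Continuous Rd := (hDc.comp hzc).clm_apply (hec.comp continuous_snd)
  have hSc : Continuous Sd :=
    (hDc.comp hzc).clm_apply (continuous_const.mul (hec.comp continuous_snd))
  obtain ⟨M, hM0, hM⟩ := hψc.isBounded.subset_ball_lt 0 p
  have hne : ∀ θ, ‖e θ‖ = 1 := fun θ => by
    have h : e θ = Complex.exp (θ * Complex.I) := by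
      rw [Complex.exp_mul_I]; simp [he]
    rw [h, Complex.norm_exp_ofReal_mul_I]
  have hfar : ∀ q : ℝ × ℝ, M ≤ q.1 → z q ∉ tsupport ψ := fun q hq hm => by
    have h := mem_ball.1 (hM hm)
    rw [hz, dist_eq_norm, add_sub_cancel_left, norm_mul, hne, mul_one, Complex.norm_real,
      Real.norm_eq_abs] at h
    linarith [le_abs_self q.1]
  have hint : ∀ F : ℝ × ℝ → ℝ, Continuous F → (∀ q, M ≤ q.1 → F q = 0) →
      IntegrableOn F (Ioi (0 : ℝ) ×ˢ Ioo (-π) π) (volume.prod volume) := by
    intro F hF hF0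
    refine IntegrableOn.of_forall_sdiff_eq_zero (s := Icc 0 M ×ˢ Icc (-π) π)
      (hF.continuousOn.integrableOn_compact (isCompact_Icc.prod isCompact_Icc))
      (measurableSet_Ioi.prod measurableSet_Ioo) ?_
    rintro q ⟨⟨hq1, hq2⟩, hqn⟩
    refine hF0 q (le_of_lt ?_)
    by_contra hc
    exact hqn ⟨⟨le_of_lt hq1, not_lt.1 hc⟩, Ioo_subset_Icc_self hq2⟩
  have hR0 : ∀ q, M ≤ q.1 → Rd q = 0 := fun q hq => by
    simp [hRd, fderiv_of_notMem_tsupport ℝ (hfar q hq)]
  have hS0 : ∀ q, M ≤ q.1 → Sd q = 0 := fun q hq => by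
    simp [hSd, fderiv_of_notMem_tsupport ℝ (hfar q hq)]
  have hRi := hint Rd hRc hR0
  have hSi := hint Sd hSc hS0
  -- radial part
  have hradial : ∫ q in Ioi (0 : ℝ) ×ˢ Ioo (-π) π, Rd q ∂volume.prod volume = -(2 * π * ψ p) := by
    rw [← setIntegral_prod_swap, setIntegral_prod (fun q => Rd q.swap) hRi.swap]
    have hin : ∀ θ : ℝ, ∫ r in Ioi (0 : ℝ), Rd (r, θ) = -ψ p := by
      intro θ
      have hcr : Continuous fun r : ℝ => Rd (r, θ) := hRc.comp (by fun_prop)
      rw [setIntegral_eq_of_subset_of_forall_sdiff_eq_zero (f := fun r : ℝ => Rd (r, θ))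
        (s := Ioc 0 M) (t := Ioi 0) measurableSet_Ioi
        Ioc_subset_Ioi_self fun r hr => hR0 _ (le_of_lt (by
          by_contra hc
          exact hr.2 ⟨hr.1, not_lt.1 hc⟩)),
        ← intervalIntegral.integral_of_le hM0.le,
        intervalIntegral.integral_eq_sub_of_hasDerivAt (f := fun r : ℝ => ψ (z (r, θ)))
          (fun r _ => ?_) (hcr.intervalIntegrable _ _)]
      · rw [image_eq_zero_of_notMem_tsupport (hfar (M, θ) le_rfl)]
        simp [hz]
      · have hl : HasDerivAt (fun r : ℝ => z (r, θ)) (e θ) r := by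
          simpa [hz] using ((Complex.ofRealCLM.hasDerivAt (x := r)).mul_const (e θ)).const_add p
        exact ((hψ.differentiable one_ne_zero) _).hasFDerivAt.comp_hasDerivAt r hl
    simp only [Prod.swap_prod_mk, hin, setIntegral_const, smul_eq_mul, Real.volume_real_Ioo,
      sub_neg_eq_add, max_eq_left (show (0 : ℝ) ≤ π + π by positivity)]
    ring
  -- tangential part
  have htan : ∫ q in Ioi (0 : ℝ) ×ˢ Ioo (-π) π, Sd q ∂volume.prod volume = 0 := by
    rw [setIntegral_prod _ hSi]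
    refine setIntegral_eq_zero_of_forall_eq_zero fun r hr => ?_
    have hcr : Continuous fun θ : ℝ => Sd (r, θ) := hSc.comp (by fun_prop)
    have hd : ∀ θ, HasDerivAt (fun θ => ψ (z (r, θ))) (r * Sd (r, θ)) θ := by
      intro θ
      have h1 : HasDerivAt e (Complex.I * e θ) θ := by
        have := ((Real.hasDerivAt_cos θ).ofReal_comp).add
          (((Real.hasDerivAt_sin θ).ofReal_comp).mul_const Complex.I)
        refine this.congr_deriv ?_
        simp only [he]
        push_cast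
        linear_combination -(Complex.sin θ) * Complex.I_mul_I
      have h2 : HasDerivAt (fun θ => z (r, θ)) ((r : ℂ) * (Complex.I * e θ)) θ :=
        (h1.const_mul (r : ℂ)).const_add p
      refine (((hψ.differentiable one_ne_zero) _).hasFDerivAt.comp_hasDerivAt θ h2).congr_deriv ?_
      rw [show (r : ℂ) * (Complex.I * e θ) = r • (Complex.I * e θ) from (Complex.real_smul).symm,
        map_smul, smul_eq_mul, hSd]
    have hkey := intervalIntegral.integral_eq_sub_of_hasDerivAt (a := -π) (b := π)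
      (fun θ _ => hd θ) ((continuous_const.mul hcr).intervalIntegrable _ _)
    rw [intervalIntegral.integral_const_mul, show z (r, π) = z (r, -π) by simp [hz, he], sub_self,
      mul_eq_zero, intervalIntegral.integral_of_le (by linarith [Real.pi_pos]),
      integral_Ioc_eq_integral_Ioo] at hkey
    exact hkey.resolve_left (mem_Ioi.1 hr).ne'
  -- polar coordinates
  rw [← integral_add_left_eq_self _ p, ← Complex.integral_comp_polarCoord_symm, polarCoord_target,
    Measure.volume_eq_prod]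
  have heq : ∀ q ∈ Ioi (0 : ℝ) ×ˢ Ioo (-π) π,
      q.1 • (db ψ (p + Complex.polarCoord.symm q) / (p - (p + Complex.polarCoord.symm q))) =
        -((Rd q : ℂ) + Complex.I * (Sd q : ℂ)) := by
    intro q hq
    have hr : (q.1 : ℂ) ≠ 0 := Complex.ofReal_ne_zero.2 (mem_Ioi.1 hq.1).ne'
    have he0 : e q.2 ≠ 0 := norm_pos_iff.1 (by rw [hne]; exact one_pos)
    have hsym : Complex.polarCoord.symm q = (q.1 : ℂ) * e q.2 := by
      rw [Complex.polarCoord_symm_apply, he]
    have hzq : p + (q.1 : ℂ) * e q.2 = z q := rfl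
    have hcs := Complex.cos_sq_add_sin_sq (q.2 : ℂ)
    have hdec : db ψ (z q) = e q.2 * ((Rd q : ℂ) + Complex.I * (Sd q : ℂ)) := by
      have hA : ∀ w : ℂ, fderiv ℝ ψ (z q) w =
          w.re * fderiv ℝ ψ (z q) 1 + w.im * fderiv ℝ ψ (z q) Complex.I := fun w => by
        conv_lhs => rw [show w = w.re • (1 : ℂ) + w.im • Complex.I by apply Complex.ext <;> simp]
        rw [map_add, map_smul, map_smul, smul_eq_mul, smul_eq_mul]
      simp only [db, hRd, hSd, hA (e q.2), hA (Complex.I * e q.2)]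
      simp [he]
      linear_combination
        -((fderiv ℝ ψ (z q) 1 : ℂ) + Complex.I * (fderiv ℝ ψ (z q) Complex.I : ℂ)) * hcs +
        ((Complex.sin q.2) ^ 2 * ((fderiv ℝ ψ (z q) 1 : ℂ) +
          Complex.I * (fderiv ℝ ψ (z q) Complex.I : ℂ))) * Complex.I_sq -
        ((fderiv ℝ ψ (z q) Complex.I : ℂ) * Complex.sin q.2 *
          (Complex.cos q.2 + Complex.I * Complex.sin q.2)) * Complex.I_sq
    rw [hsym, hzq, Complex.real_smul, hdec, show p - z q = -((q.1 : ℂ) * e q.2) by simp [hz]]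
    field_simp
  have hRi' : Integrable (fun q => (Rd q : ℂ))
      ((volume.prod volume).restrict (Ioi (0 : ℝ) ×ˢ Ioo (-π) π)) := hRi.ofReal
  have hSi' : Integrable (fun q => Complex.I * (Sd q : ℂ))
      ((volume.prod volume).restrict (Ioi (0 : ℝ) ×ˢ Ioo (-π) π)) :=
    Integrable.const_mul hSi.ofReal Complex.I
  rw [setIntegral_congr_fun (measurableSet_Ioi.prod measurableSet_Ioo) heq, integral_neg,
    integral_add hRi' hSi', integral_const_mul,
    integral_complex_ofReal, integral_complex_ofReal, hradial, htan]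
  simp

/-- `z ↦ 1/|z|` is integrable on discs. -/
theorem integrableOn_norm_inv (M : ℝ) : IntegrableOn (fun z : ℂ => ‖z‖⁻¹) (ball 0 M) := by
  rw [← integrable_indicator_iff measurableSet_ball]
  refine ⟨(Measurable.indicator (by fun_prop) measurableSet_ball).aestronglyMeasurable, ?_⟩
  rw [hasFiniteIntegral_iff_ofReal (Eventually.of_forall fun z => indicator_nonneg
    (fun z _ => inv_nonneg.2 (norm_nonneg z)) z), ← Complex.lintegral_comp_polarCoord_symm]
  refine lt_of_le_of_lt (lintegral_mono (g := (Icc 0 M ×ˢ Icc (-π) π).indicator 1 +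
    ((Ioi (0 : ℝ) ×ˢ Ioo (-π) π)ᶜ).indicator (fun _ => ⊤)) fun q => ?_) ?_
  · by_cases hq : q ∈ Ioi (0 : ℝ) ×ˢ Ioo (-π) π
    · have h0 : 0 < q.1 := hq.1
      simp only [Pi.add_apply, indicator_of_notMem (notMem_compl_iff.2 hq), add_zero]
      by_cases hb : Complex.polarCoord.symm q ∈ ball (0 : ℂ) M
      · have hqM : q.1 < M := by
          simpa [Complex.norm_polarCoord_symm, abs_of_pos h0] using hb
        rw [indicator_of_mem hb, indicator_of_mem (show q ∈ Icc 0 M ×ˢ Icc (-π) π from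
          ⟨⟨h0.le, hqM.le⟩, Ioo_subset_Icc_self hq.2⟩), Complex.norm_polarCoord_symm,
          abs_of_pos h0, smul_eq_mul, ← ENNReal.ofReal_mul h0.le, mul_inv_cancel₀ h0.ne',
          ENNReal.ofReal_one, Pi.one_apply]
      · rw [indicator_of_notMem hb]; simp
    · simp [indicator_of_mem (mem_compl hq)]
  · simp only [Pi.add_apply]
    rw [polarCoord_target, lintegral_add_left (measurable_one.indicator
      (measurableSet_Icc.prod measurableSet_Icc))]
    refine ENNReal.add_lt_top.2 ⟨?_, ?_⟩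
    · refine lt_of_le_of_lt (setLIntegral_le_lintegral _ _) ?_
      simp only [Pi.one_def]
      rw [lintegral_indicator_const (measurableSet_Icc.prod measurableSet_Icc), one_mul]
      exact (isCompact_Icc.prod isCompact_Icc).measure_lt_top
    · rw [setLIntegral_congr_fun (measurableSet_Ioi.prod measurableSet_Ioo) (g := fun _ => 0)
        fun q hq => indicator_of_notMem (notMem_compl_iff.2 hq) _]
      simp

variable {K : Set ℂ} {u : ℂ → ℝ} {g g₁ g₂ : ℝ → ℂ} {T T₁ T₂ : ℝ} {p q : ℂ}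

/-- Two arcs with the same ends have the same Cauchy integral off `K`. -/
theorem cau_eq (h : OpenCase K u) (d₁ : ArcData K g₁ T₁ p q) (d₂ : ArcData K g₂ T₂ p q) {z : ℂ}
    (hz : z ∉ K) : cau g₁ T₁ z = cau g₂ T₂ z := by
  have hK := h.isClosed
  have hd : ∀ w ∈ Kᶜ, HasDerivAt (fun w => cau g₁ T₁ w - cau g₂ T₂ w) 0 w := fun w hw => by
    simpa using (hasDerivAt_cau d₁ hK hw).fun_sub (hasDerivAt_cau d₂ hK hw)
  have hconst : ∀ w ∈ Kᶜ, cau g₁ T₁ w - cau g₂ T₂ w = cau g₁ T₁ z - cau g₂ T₂ z := fun w hw =>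
    hK.isOpen_compl.is_const_of_deriv_eq_zero h.conn
      (fun v hv => (hd v hv).differentiableAt.differentiableWithinAt)
      (fun v hv => (hd v hv).deriv) hw hz
  have hbd : ∀ (g : ℝ → ℂ) (T : ℝ) (d : ArcData K g T p q) (w : ℂ), T + ‖p‖ < ‖w‖ →
      ‖cau g T w‖ ≤ T / (‖w‖ - (T + ‖p‖)) := by
    intro g T d w hw
    have hb : ∀ t ∈ uIoc 0 T, ‖deriv g t / (g t - w)‖ ≤ 1 / (‖w‖ - (T + ‖p‖)) := by
      intro t ht
      rw [uIoc_of_le d.pos.le] at ht
      have h1 : dist (g t) (g 0) ≤ T := (d.lip.dist_le_mul t 0).trans (by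
        rw [NNReal.coe_one, one_mul, Real.dist_eq, sub_zero, abs_of_pos ht.1]; exact ht.2)
      rw [dist_eq_norm, d.source] at h1
      have h2 := norm_sub_norm_le w (g t)
      have h3 := norm_sub_norm_le (g t) p
      rw [norm_sub_rev w] at h2
      rw [norm_div]
      exact div_le_div₀ zero_le_one (norm_deriv_le d t) (by linarith) (by linarith)
    refine (intervalIntegral.norm_integral_le_of_norm_le_const hb).trans (le_of_eq ?_)
    rw [sub_zero, abs_of_pos d.pos]
    ring
  rw [← sub_eq_zero, ← norm_eq_zero]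
  refine le_antisymm (le_of_forall_pos_le_add fun ε hε => ?_) (norm_nonneg _)
  set m := T₁ + T₂ + ‖p‖ + (T₁ + T₂) / ε + 1
  have hdense : Dense Kᶜ := h.toIsGM.dense_compl
  have hT := d₁.pos
  have hT' := d₂.pos
  have hm : 0 ≤ m := by positivity
  obtain ⟨w, hwm, hw⟩ := hdense.inter_open_nonempty (closedBall (0 : ℂ) m)ᶜ
    isClosed_closedBall.isOpen_compl ⟨((m + 1 : ℝ) : ℂ), by
      rw [mem_compl_iff, mem_closedBall_zero_iff, Complex.norm_real, Real.norm_eq_abs,
        abs_of_nonneg (by linarith : (0 : ℝ) ≤ m + 1)]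
      linarith⟩
  have hwm' : m < ‖w‖ := by simpa [dist_zero_right] using hwm
  rw [← hconst w hw]
  have hq := div_nonneg (add_pos hT hT').le hε.le
  have hA : (T₁ + T₂) / ε ≤ ‖w‖ - (T₁ + T₂ + ‖p‖) := by linarith
  have hpos : 0 < ‖w‖ - (T₁ + T₂ + ‖p‖) := lt_of_lt_of_le (div_pos (add_pos hT hT') hε) hA
  have e1 : T₁ / (‖w‖ - (T₁ + ‖p‖)) ≤ T₁ / (‖w‖ - (T₁ + T₂ + ‖p‖)) := by gcongr; linarith
  have e2 : T₂ / (‖w‖ - (T₂ + ‖p‖)) ≤ T₂ / (‖w‖ - (T₁ + T₂ + ‖p‖)) := by gcongr; linarith
  have e3 : (T₁ + T₂) / (‖w‖ - (T₁ + T₂ + ‖p‖)) ≤ ε := by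
    rw [div_le_iff₀ hpos]
    rw [div_le_iff₀ hε] at hA
    linarith
  have b1 := hbd g₁ T₁ d₁ w (by linarith)
  have b2 := hbd g₂ T₂ d₂ w (by linarith)
  calc ‖cau g₁ T₁ w - cau g₂ T₂ w‖ ≤ ‖cau g₁ T₁ w‖ + ‖cau g₂ T₂ w‖ := norm_sub_le _ _
    _ ≤ 0 + ε := by rw [add_div] at e3; linarith

/-- Integral of a test function along an arc through the Cauchy integral. -/
theorem arc_integral (d : ArcData K g T p q) {ψ : ℂ → ℝ} (hψ : ContDiff ℝ 1 ψ)
    (hψc : HasCompactSupport ψ) :
    ∫ t in Ioc 0 T, deriv g t * ((2 * π * ψ (g t) : ℝ) : ℂ) = ∫ w, db ψ w * cau g T w := by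
  obtain ⟨M, -, hM⟩ := hψc.isBounded.subset_ball_lt 0 (0 : ℂ)
  have hdbc : HasCompactSupport (db ψ) := HasCompactSupport.of_support_subset_isCompact hψc
    fun w hw => by_contra fun h => hw (db_eq_zero h)
  obtain ⟨D, hD⟩ := hdbc.exists_bound_of_continuous (continuous_db hψ)
  set P := ‖p‖ + T
  set k : ℂ → ℝ := (ball (0 : ℂ) (P + M)).indicator fun z => ‖z‖⁻¹ with hk
  have hki : Integrable k := (integrable_indicator_iff measurableSet_ball).2 (integrableOn_norm_inv _)
  have hgT : ∀ t ∈ Ioc 0 T, ‖g t‖ ≤ P := fun t ht => by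
    have h1 : dist (g t) (g 0) ≤ T := (d.lip.dist_le_mul t 0).trans (by
      rw [NNReal.coe_one, one_mul, Real.dist_eq, sub_zero, abs_of_pos ht.1]; exact ht.2)
    rw [dist_eq_norm, d.source] at h1
    have := norm_sub_norm_le (g t) p
    linarith
  have hb : ∀ t ∈ Ioc 0 T, ∀ w, ‖deriv g t * (db ψ w / (g t - w))‖ ≤ D * k (g t - w) := by
    intro t ht w
    have hk0 : 0 ≤ k (g t - w) := indicator_nonneg (fun z _ => inv_nonneg.2 (norm_nonneg z)) _
    by_cases hw : w ∈ tsupport ψ
    · have h1 : g t - w ∈ ball (0 : ℂ) (P + M) := by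
        have := mem_ball_zero_iff.1 (hM hw)
        rw [mem_ball_zero_iff]
        have := norm_sub_le (g t) w
        have := hgT t ht
        linarith
      rw [hk, indicator_of_mem h1, norm_mul, norm_div, div_eq_mul_inv, ← mul_assoc]
      gcongr
      exact (mul_le_mul (norm_deriv_le d t) (hD w) (norm_nonneg _) zero_le_one).trans_eq (one_mul _)
    · rw [db_eq_zero hw, zero_div, mul_zero, norm_zero]
      exact mul_nonneg ((norm_nonneg _).trans (hD 0)) hk0
  have hgm : Measurable g := d.lip.continuous.measurable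
  have hmeas : AEStronglyMeasurable
      (Function.uncurry fun t w => deriv g t * (db ψ w / (g t - w)))
      ((volume.restrict (Ioc 0 T)).prod volume) := by
    refine Measurable.aestronglyMeasurable ?_
    have := measurable_deriv g
    have := (continuous_db hψ).measurable
    unfold Function.uncurry
    fun_prop
  have hint : Integrable (Function.uncurry fun t w => deriv g t * (db ψ w / (g t - w)))
      ((volume.restrict (Ioc 0 T)).prod volume) := by
    rw [integrable_prod_iff hmeas]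
    refine ⟨?_, ?_⟩
    · filter_upwards [ae_restrict_mem measurableSet_Ioc] with t ht
      refine ((hki.comp_sub_left (g t)).const_mul D).mono' ?_ (Eventually.of_forall (hb t ht))
      refine Measurable.aestronglyMeasurable ?_
      have := (continuous_db hψ).measurable
      simp only [Function.uncurry]
      fun_prop
    · refine (integrable_const (D * ∫ z, k z)).mono' hmeas.norm.integral_prod_right' ?_
      filter_upwards [ae_restrict_mem measurableSet_Ioc] with t ht
      rw [Real.norm_of_nonneg (integral_nonneg fun w => norm_nonneg _)]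
      calc ∫ w, ‖Function.uncurry (fun t w => deriv g t * (db ψ w / (g t - w))) (t, w)‖
          ≤ ∫ w, D * k (g t - w) := integral_mono_of_nonneg
            (Eventually.of_forall fun w => norm_nonneg _) ((hki.comp_sub_left (g t)).const_mul D)
            (Eventually.of_forall (hb t ht))
        _ = D * ∫ z, k z := by rw [integral_const_mul, integral_sub_left_eq_self k volume (g t)]
  calc ∫ t in Ioc 0 T, deriv g t * ((2 * π * ψ (g t) : ℝ) : ℂ)
      = ∫ t in Ioc 0 T, ∫ w, deriv g t * (db ψ w / (g t - w)) := by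
        refine integral_congr_ae (Eventually.of_forall fun t => ?_)
        simp only
        rw [integral_const_mul, pompeiu hψ hψc]
    _ = ∫ w, ∫ t in Ioc 0 T, deriv g t * (db ψ w / (g t - w)) := integral_integral_swap hint
    _ = ∫ w, db ψ w * cau g T w := by
        refine integral_congr_ae (Eventually.of_forall fun w => ?_)
        simp only
        rw [cau, intervalIntegral.integral_of_le d.pos.le, ← integral_const_mul]
        exact integral_congr_ae (Eventually.of_forall fun t => by ring)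

/-- Of two arcs with the same ends, the first cannot leave the second. -/
theorem arc_subset (h : OpenCase K u) (d₁ : ArcData K g₁ T₁ p q) (d₂ : ArcData K g₂ T₂ p q)
    (hinj : InjOn g₁ (Icc 0 T₁)) {t : ℝ} (ht : t ∈ Icc 0 T₁) : g₁ t ∈ g₂ '' Icc 0 T₂ := by
  by_contra hout
  set S := g₂ '' Icc 0 T₂
  have hSc : IsClosed S := (isCompact_Icc.image d₂.lip.continuous).isClosed
  have hev : ∀ᶠ s in 𝓝[Icc 0 T₁] t, g₁ s ∉ S :=
    (d₁.lip.continuous.tendsto t).mono_left nhdsWithin_le_nhds |>.eventually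
      (hSc.isOpen_compl.mem_nhds hout)
  obtain ⟨η, hη, hηsub⟩ := Metric.mem_nhdsWithin_iff.1 hev
  set a := max 0 (t - η / 2) with ha
  set b := min T₁ (t + η / 2) with hb
  have hab : a < b := by
    have := d₁.pos
    rw [ha, hb, max_lt_iff, lt_min_iff, lt_min_iff]
    exact ⟨⟨this, by linarith [ht.1]⟩, by linarith [ht.2], by linarith⟩
  have ha0 : 0 ≤ a := le_max_left _ _
  have hbT : b ≤ T₁ := min_le_left _ _
  have hI : Icc a b ⊆ Icc 0 T₁ := Icc_subset_Icc ha0 hbT
  have hJ : ∀ s ∈ Icc a b, g₁ s ∉ S := fun s hs => hηsub ⟨by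
    rw [mem_ball, Real.dist_eq, abs_lt]
    constructor
    · linarith [hs.1, le_max_right 0 (t - η / 2)]
    · linarith [hs.2, min_le_right T₁ (t + η / 2)], hI hs⟩
  set Q := g₁ '' Icc a b
  have hQ : IsCompact Q := isCompact_Icc.image d₁.lip.continuous
  obtain ⟨f, hfs, hfC, hf01⟩ := (hQ.isClosed.isOpen_compl).exists_contDiff_support_eq (n := 1)
  obtain ⟨R, hR0, hR⟩ := hQ.isBounded.subset_ball_lt 0 (0 : ℂ)
  let χ : ContDiffBump (0 : ℂ) :=
    { rIn := R, rOut := R + 1, rIn_pos := hR0, rIn_lt_rOut := by linarith }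
  set ψ : ℕ → ℂ → ℝ := fun n z => χ z * Real.smoothTransition (1 - n * f z) with hψ
  have hψC : ∀ n, ContDiff ℝ 1 (ψ n) := fun n =>
    χ.contDiff.mul (Real.smoothTransition.contDiff.comp (contDiff_const.sub (contDiff_const.mul hfC)))
  have hψc : ∀ n, HasCompactSupport (ψ n) := fun n => χ.hasCompactSupport.mul_right
  have hψ1 : ∀ n z, ‖ψ n z‖ ≤ 1 := fun n z => by
    rw [hψ, Real.norm_of_nonneg (mul_nonneg χ.nonneg (Real.smoothTransition.nonneg _))]
    exact mul_le_one₀ χ.le_one (Real.smoothTransition.nonneg _) (Real.smoothTransition.le_one _)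
  have hlim : ∀ z, Tendsto (fun n => ψ n z) atTop (𝓝 (Q.indicator (fun _ => (1 : ℝ)) z)) := by
    intro z
    by_cases hz : z ∈ Q
    · rw [indicator_of_mem hz]
      refine tendsto_const_nhds.congr fun n => ?_
      have hf0 : f z = 0 := by
        rw [← Function.notMem_support, hfs]; exact notMem_compl_iff.2 hz
      simp [hψ, hf0, χ.one_of_mem_closedBall (ball_subset_closedBall (hR hz)),
        Real.smoothTransition.one_of_one_le le_rfl]
    · rw [indicator_of_notMem hz]
      have hfz : 0 < f z := lt_of_le_of_ne (hf01 ⟨z, rfl⟩).1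
        (Ne.symm (by rw [← Function.mem_support, hfs]; exact hz))
      refine tendsto_const_nhds.congr' ?_
      filter_upwards [(tendsto_natCast_atTop_atTop (R := ℝ)).eventually (eventually_ge_atTop (f z)⁻¹)]
        with n hn
      have : 1 ≤ n * f z := by
        have := mul_le_mul_of_nonneg_right hn hfz.le
        rwa [inv_mul_cancel₀ hfz.ne'] at this
      simp [hψ, Real.smoothTransition.zero_of_nonpos (show 1 - (n : ℝ) * f z ≤ 0 by linarith)]
  have hdom : ∀ (g : ℝ → ℂ) (T : ℝ), ArcData K g T p q →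
      Tendsto (fun n => ∫ t in Ioc 0 T, deriv g t * ((2 * π * ψ n (g t) : ℝ) : ℂ)) atTop
        (𝓝 (∫ t in Ioc 0 T, deriv g t * ((2 * π * Q.indicator (fun _ => (1 : ℝ)) (g t) : ℝ) : ℂ))) := by
    intro g T d
    refine tendsto_integral_of_dominated_convergence (fun _ => 2 * π)
      (fun n => ?_) (integrable_const _) (fun n => Eventually.of_forall fun s => ?_)
      (Eventually.of_forall fun s => ?_)
    · exact ((measurable_deriv g).mul (Complex.continuous_ofReal.comp
        (continuous_const.mul ((hψC n).continuous.comp d.lip.continuous))).measurable).aestronglyMeasurable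
    · rw [norm_mul, Complex.norm_real, norm_mul, Real.norm_of_nonneg Real.two_pi_pos.le]
      calc ‖deriv g s‖ * (2 * π * ‖ψ n (g s)‖) ≤ 1 * (2 * π * 1) := by
            gcongr
            · exact norm_deriv_le d s
            · exact hψ1 n _
        _ = 2 * π := by ring
    · exact (((Complex.continuous_ofReal.tendsto _).comp ((hlim (g s)).const_mul (2 * π)))).const_mul _
  have hnull : ∀ᵐ w : ℂ, w ∉ K := measure_eq_zero_iff_ae_notMem.1 h.toIsGM.volume_eq_zero
  have heq := tendsto_nhds_unique (hdom g₁ T₁ d₁) ((hdom g₂ T₂ d₂).congr fun n => by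
    rw [arc_integral d₂ (hψC n) (hψc n), arc_integral d₁ (hψC n) (hψc n)]
    exact integral_congr_ae (hnull.mono fun w hw => by simp only; rw [cau_eq h d₁ d₂ hw]))
  rw [setIntegral_eq_zero_of_forall_eq_zero (t := Ioc 0 T₂) fun s hs => ?_,
    setIntegral_eq_of_subset_of_ae_sdiff_eq_zero measurableSet_Ioc.nullMeasurableSet
      (Ioc_subset_Ioc ha0 hbT) ?_] at heq
  rotate_left
  · filter_upwards [Measure.ae_ne volume a] with s hsa hs
    rw [indicator_of_notMem (show g₁ s ∉ Q from ?_)]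
    · simp
    rintro ⟨s', hs', e⟩
    rw [hinj (hI hs') (Ioc_subset_Icc_self hs.1) e] at hs'
    exact hs.2 ⟨lt_of_le_of_ne hs'.1 (Ne.symm hsa), hs'.2⟩
  · rw [indicator_of_notMem (show g₂ s ∉ Q from ?_)]
    · simp
    rintro ⟨s', hs', e⟩
    exact hJ s' hs' (e ▸ mem_image_of_mem g₂ (Ioc_subset_Icc_self hs))
  have hval : ∫ s in Ioc a b, deriv g₁ s * ((2 * π * Q.indicator (fun _ => (1 : ℝ)) (g₁ s) : ℝ) : ℂ)
      = (g₁ b - g₁ a) * ((2 * π : ℝ) : ℂ) := by
    have e1 : ∫ s in Ioc a b, deriv g₁ s * ((2 * π * Q.indicator (fun _ => (1 : ℝ)) (g₁ s) : ℝ) : ℂ)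
        = ∫ s in Ioc a b, deriv g₁ s * ((2 * π : ℝ) : ℂ) :=
      setIntegral_congr_fun measurableSet_Ioc fun s hs => by
        rw [indicator_of_mem (mem_image_of_mem g₁ (Ioc_subset_Icc_self hs)), mul_one]
    rw [e1, integral_mul_const, ← intervalIntegral.integral_of_le hab.le,
      integral_deriv_complex (d₁.lip.lipschitzOnWith (s := uIcc a b)) ?_ ?_]
    · filter_upwards [d₁.lip.ae_differentiableAt_real] with s hs _
      exact hs.hasDerivAt
    · exact IntervalIntegrable.mono_fun' (intervalIntegrable_const (c := (1 : ℝ)))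
        (measurable_deriv g₁).aestronglyMeasurable (Eventually.of_forall fun s => norm_deriv_le d₁ s)
  rw [hval] at heq
  have h2 : g₁ b - g₁ a = 0 :=
    (mul_eq_zero.1 heq).resolve_right (Complex.ofReal_ne_zero.2 Real.two_pi_pos.ne')
  exact hab.ne' (hinj (hI (right_mem_Icc.2 hab.le)) (hI (left_mem_Icc.2 hab.le)) (sub_eq_zero.1 h2))

/-- Two continua in `K` meet in a connected set. -/
theorem isPreconnected_inter (hG : GrowthSpec) (h : OpenCase K u) {A B : Set ℂ} (hA : IsCompact A)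
    (hB : IsCompact B) (hAc : IsPreconnected A) (hBc : IsPreconnected B) (hAK : A ⊆ K)
    (hBK : B ⊆ K) : IsPreconnected (A ∩ B) := by
  rw [isPreconnected_closed_iff]
  rintro E F hE hF hcov ⟨p, hpS, hpE⟩ ⟨q, hqS, hqF⟩
  by_contra hdis
  have hpq : p ≠ q := fun e => hdis ⟨p, hpS, hpE, e ▸ hqF⟩
  have arc : ∀ S : Set ℂ, IsCompact S → IsPreconnected S → S ⊆ K → p ∈ S → q ∈ S →
      ∃ g T, ArcData K g T p q ∧ InjOn g (Icc 0 T) ∧ MapsTo g (Icc 0 T) S := by
    intro S hS hSc hSK hp hq
    have hfin : μH[1] S < ⊤ := by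
      have := h.toIsGM.length_lt_top_of_isBounded hS.isBounded
      rwa [inter_eq_right.2 hSK] at this
    obtain ⟨γ, T, hγ⟩ := continuum S hS ⟨⟨p, hp⟩, hSc⟩ hfin p hp q hq
    have hγK : ArcIn K γ T p q := ⟨hγ.nonneg, hγ.lip, hγ.inj, hγ.maps.mono_right hSK, hγ.source,
      hγ.target, fun V hV => (hγ.time V hV).trans (measure_mono (inter_subset_inter_left V hSK))⟩
    have hT0 : 0 < T := hγ.nonneg.lt_of_ne fun e => hpq (by
      have := hγ.target; rw [← e] at this; exact hγ.source.symm.trans this)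
    set g : ℝ → ℂ := IccExtend hγ.nonneg fun t => γ t
    have hgt : ∀ t ∈ Icc 0 T, g t = γ t := fun t ht => IccExtend_of_mem _ _ ht
    have hlip : LipschitzWith 1 g := by
      have := hγ.lip.to_restrict.comp (LipschitzWith.projIcc hγ.nonneg)
      rwa [one_mul] at this
    refine ⟨g, T, ⟨hT0, hlip, fun t ht => hgt t ht ▸ hγK.maps ht,
      (hgt 0 (left_mem_Icc.2 hT0.le)).trans hγ.source,
      (hgt T (right_mem_Icc.2 hT0.le)).trans hγ.target, fun t ht e => ?_, fun t ht e => ?_,
      fun c s hs => ?_⟩, fun s hs t ht e => hγ.inj hs ht (by rwa [hgt s hs, hgt t ht] at e),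
      fun t ht => hgt t ht ▸ hγ.maps ht⟩
    · rw [hgt t (Ioc_subset_Icc_self ht), ← hγ.source] at e
      exact ht.1.ne' (hγ.inj (Ioc_subset_Icc_self ht) (left_mem_Icc.2 hT0.le) e)
    · rw [hgt t (Ico_subset_Icc_self ht), ← hγ.target] at e
      exact ht.2.ne (hγ.inj (Ico_subset_Icc_self ht) (right_mem_Icc.2 hT0.le) e)
    · refine le_trans (le_of_eq_of_le ?_ (hγK.time _ measurableSet_ball)) (time_ball_le hG h.toIsGM c hs)
      congr 1
      ext t
      simp only [mem_inter_iff, mem_preimage, and_congr_right_iff]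
      intro ht
      rw [hgt t ht]
  obtain ⟨g₁, T₁, d₁, hi₁, hm₁⟩ := arc A hA hAc hAK hpS.1 hqS.1
  obtain ⟨g₂, T₂, d₂, -, hm₂⟩ := arc B hB hBc hBK hpS.2 hqS.2
  have hsub : g₁ '' Icc 0 T₁ ⊆ A ∩ B := by
    rintro _ ⟨t, ht, rfl⟩
    obtain ⟨s, hs, e⟩ := arc_subset h d₁ d₂ hi₁ ht
    exact ⟨hm₁ ht, e ▸ hm₂ hs⟩
  obtain ⟨z, hz, hzEF⟩ := isPreconnected_closed_iff.1
    (isPreconnected_Icc.image g₁ d₁.lip.continuous.continuousOn) E F hE hF (hsub.trans hcov)
    ⟨p, ⟨0, left_mem_Icc.2 d₁.pos.le, d₁.source⟩, hpE⟩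
    ⟨q, ⟨T₁, right_mem_Icc.2 d₁.pos.le, d₁.target⟩, hqF⟩
  exact hdis ⟨z, hsub hz, hzEF⟩

end Vale.Agent.P128.Leaf
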